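import Vale.Agent.P192.EightRelators

/-!
The finitely presented Burnside question only concerns presentations with four generators and
eight relators, taken modulo a finitely generated central subgroup.
-/

namespace Vale.Agent.Results.P192.EightRelatorReduction

open Vale.Agent.P192

universe u

theorem result :
    ((∃ (G : Type u) (_ : Group G), Group.IsFinitelyPresented G ∧
        (∀ g : G, IsOfFinOrder g) ∧ Infinite G) ↔
      ∃ (R : Fin 8 → FreeGroup (Fin 4)) (Z : Subgroup (PresentedGroup (Set.range R))),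
        Z.FG ∧ Z ≤ Subgroup.center _ ∧ Infinite (PresentedGroup (Set.range R) ⧸ Z) ∧
        ∀ w : PresentedGroup (Set.range R), ∃ n : ℕ, 0 < n ∧ w ^ n ∈ Z) ∧
    ((∃ (G : Type u) (_ : Group G), Group.IsFinitelyPresented G ∧
        (∃ e : ℕ, 1 ≤ e ∧ ∀ g : G, g ^ e = 1) ∧ Infinite G) ↔
      ∃ (R : Fin 8 → FreeGroup (Fin 4)) (Z : Subgroup (PresentedGroup (Set.range R))),
        Z.FG ∧ Z ≤ Subgroup.center _ ∧ Infinite (PresentedGroup (Set.range R) ⧸ Z) ∧
        ∃ e : ℕ, 1 ≤ e ∧ ∀ w : PresentedGroup (Set.range R), w ^ e ∈ Z) := by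
  have fwd : ∀ (G : Type u) [Group G] [Group.IsFinitelyPresented G] [Infinite G],
      (∀ g : G, IsOfFinOrder g) →
      ∃ (R : Fin 8 → FreeGroup (Fin 4)) (Z : Subgroup (PresentedGroup (Set.range R))),
        Z.FG ∧ Z ≤ Subgroup.center _ ∧ Infinite (PresentedGroup (Set.range R) ⧸ Z) ∧
        (∀ w : PresentedGroup (Set.range R), ∃ n : ℕ, 0 < n ∧ w ^ n ∈ Z) ∧
        ((∃ e : ℕ, 1 ≤ e ∧ ∀ g : G, g ^ e = 1) →
          ∃ e : ℕ, 1 ≤ e ∧ ∀ w : PresentedGroup (Set.range R), w ^ e ∈ Z) := by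
    intro G _ _ _ hper
    obtain ⟨S, _, hfp, hperS, hinf, ⟨a, b, -, hab⟩, hexp⟩ := reduction (G := G) hper
    let φ : FreeGroup (Fin 2) →* S := FreeGroup.lift ![a, b]
    have hφ : Function.Surjective φ := by
      rw [← MonoidHom.range_eq_top, eq_top_iff, ← hab, Subgroup.closure_le]
      rintro x (rfl | rfl)
      · exact ⟨FreeGroup.of 0, by simp [φ]⟩
      · exact ⟨FreeGroup.of 1, by simp [φ]⟩
    obtain ⟨R, Z, h1, h2, h3, h4, h5⟩ := exists_eight φ hφ (fin2_ker φ hφ) hperS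
    refine ⟨R, Z, h1, h2, h3, h4, ?_⟩
    rintro ⟨e, he, hG⟩
    obtain ⟨e', he', hS⟩ := hexp e he hG
    exact h5 e' he' hS
  have bwd : ∀ (R : Fin 8 → FreeGroup (Fin 4)) (Z : Subgroup (PresentedGroup (Set.range R))),
      Z.FG → Z ≤ Subgroup.center _ → Infinite (PresentedGroup (Set.range R) ⧸ Z) →
      ∃ (G : Type u) (_ : Group G) (f : PresentedGroup (Set.range R) →* G),
        Group.IsFinitelyPresented G ∧ Infinite G ∧ Function.Surjective f ∧
        ∀ w ∈ Z, f w = 1 := by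
    intro R Z hfg hc hinf
    have : Z.Normal := ⟨fun z hz x => by
      rwa [Subgroup.mem_center_iff.1 (hc hz) x, mul_inv_cancel_right]⟩
    obtain ⟨T, rfl, hT⟩ := (Subgroup.fg_iff Z).1 hfg
    have hN : (Subgroup.closure T).IsFinitelyNormallyGenerated :=
      ⟨T, hT, le_antisymm (Subgroup.normalClosure_le_normal Subgroup.subset_closure)
        Subgroup.closure_le_normalClosure⟩
    have := Group.IsFinitelyPresented.quotient (Subgroup.closure T) hN
    refine ⟨ULift.{u} (PresentedGroup (Set.range R) ⧸ Subgroup.closure T), inferInstance,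
      MulEquiv.ulift.symm.toMonoidHom.comp (QuotientGroup.mk' _),
      Group.IsFinitelyPresented.equiv MulEquiv.ulift.symm,
      Infinite.of_injective _ MulEquiv.ulift.symm.injective,
      MulEquiv.ulift.symm.surjective.comp (QuotientGroup.mk'_surjective _), fun w hw => ?_⟩
    have h0 : QuotientGroup.mk' (Subgroup.closure T) w = 1 := (QuotientGroup.eq_one_iff w).2 hw
    rw [MonoidHom.comp_apply, h0, map_one]
  refine ⟨⟨?_, ?_⟩, ⟨?_, ?_⟩⟩
  · rintro ⟨G, _, hfp, hper, hinf⟩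
    obtain ⟨R, Z, h1, h2, h3, h4, -⟩ := fwd G hper
    exact ⟨R, Z, h1, h2, h3, h4⟩
  · rintro ⟨R, Z, h1, h2, h3, h4⟩
    obtain ⟨G, _, f, hfp, hinf, hf, hZ⟩ := bwd R Z h1 h2 h3
    refine ⟨G, inferInstance, hfp, fun x => ?_, hinf⟩
    obtain ⟨w, rfl⟩ := hf x
    obtain ⟨n, hn, hw⟩ := h4 w
    exact isOfFinOrder_iff_pow_eq_one.2 ⟨n, hn, by rw [← map_pow]; exact hZ _ hw⟩
  · rintro ⟨G, _, hfp, ⟨e, he, hexp⟩, hinf⟩
    obtain ⟨R, Z, h1, h2, h3, -, h5⟩ :=
      fwd G fun x => isOfFinOrder_iff_pow_eq_one.2 ⟨e, he, hexp x⟩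
    exact ⟨R, Z, h1, h2, h3, h5 ⟨e, he, hexp⟩⟩
  · rintro ⟨R, Z, h1, h2, h3, e, he, h4⟩
    obtain ⟨G, _, f, hfp, hinf, hf, hZ⟩ := bwd R Z h1 h2 h3
    refine ⟨G, inferInstance, hfp, ⟨e, he, fun x => ?_⟩, hinf⟩
    obtain ⟨w, rfl⟩ := hf x
    rw [← map_pow]
    exact hZ _ (h4 w)

end Vale.Agent.Results.P192.EightRelatorReduction
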