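import Vale.Agent.P192.Examples

/-!
A finitely presented periodic group has finite image in every group acting with uniformly linear
Schreier growth, in particular in the full group of any action of a group of linear growth.
-/

namespace Vale.Agent.Results.P192.SchreierGrowthExclusions

open Vale.Agent.P192

/-- Let `G` be finitely presented and periodic, or more generally with no finite-index subgroup
mapping onto an infinite cyclic group. Actions with bounded cuts have finite orbits, actions with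
uniformly linear Schreier growth have finite image (so do piecewise translations by a group of
linear growth), infinite orbits satisfy the growth gap `n ≤ q ^ (c * q)`, and bounded type
bijections of path spaces give finite orbits. Periodic ones have finite image in every group
built from abelian, finite and linear-Schreier groups by subgroups, extensions and unions. -/
theorem result (G : Type) [Group G] [Group.IsFinitelyPresented G]
    (hG : (∀ g : G, IsOfFinOrder g) ∨
      ¬ ∃ H : Subgroup G, H.FiniteIndex ∧ ∃ χ : H →* Multiplicative ℤ, χ ≠ 1) :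
    (∀ (X : Type) [MulAction G X],
      (∀ E : Finset G, ∃ B : ℕ, ∀ A : Finset X, ∃ F N : Finset X, A ⊆ F ∧ N.card ≤ B ∧
        ∀ x, ∀ g ∈ E, ¬(x ∈ F ↔ g • x ∈ F) → x ∈ N) →
      ∀ x : X, (MulAction.orbit G x).Finite) ∧
    (∀ (X : Type) [MulAction G X] (S : Finset G), Subgroup.closure (S : Set G) = ⊤ →
      ∀ x : X, (MulAction.orbit G x).Infinite → ∃ c : ℕ, ∀ n : ℕ,
        let q := {y : X | ∃ l : List G, l.length ≤ n ∧ (∀ s ∈ l, s ∈ S ∨ s⁻¹ ∈ S) ∧
          l.prod • x = y}.ncard / n + 2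
        n ≤ q ^ (c * q)) ∧
    (∀ (Y : Type) (ρ : G →* Equiv.Perm Y),
      (∀ T : Finset G, ∃ C : ℕ, ∀ (y : Y) (n : ℕ),
        {z : Y | ∃ l : List G, l.length ≤ n ∧ (∀ s ∈ l, s ∈ T ∨ s⁻¹ ∈ T) ∧
            ρ l.prod y = z}.Finite ∧
          {z : Y | ∃ l : List G, l.length ≤ n ∧ (∀ s ∈ l, s ∈ T ∨ s⁻¹ ∈ T) ∧
            ρ l.prod y = z}.ncard ≤ C * (n + 1)) →
      Finite ρ.range) ∧
    (∀ (Y Λ : Type) [Group Λ] [MulAction Λ Y] (T : Finset Λ) (C : ℕ),
      Subgroup.closure (T : Set Λ) = ⊤ →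
      (∀ m : ℕ, {k : Λ | ∃ l : List Λ, l.length ≤ m ∧ (∀ s ∈ l, s ∈ T ∨ s⁻¹ ∈ T) ∧
        l.prod = k}.ncard ≤ C * (m + 1)) →
      ∀ ρ : G →* Equiv.Perm Y, (∀ g, ∃ K : Finset Λ, ∀ y, ∃ k ∈ K, ρ g y = k • y) →
        Finite ρ.range) ∧
    (∀ (Y : Type) (τ : Equiv.Perm Y) (ρ : G →* Equiv.Perm Y),
      (∀ g, ∃ K : Finset ℤ, ∀ y, ∃ k ∈ K, ρ g y = (τ ^ k) y) → Finite ρ.range) ∧
    (∀ (a : ℕ → ℕ) (ρ : G →* Equiv.Perm (∀ k, Fin (a k))),
      (∀ g, ∃ B : ℕ, ∀ n : ℕ, ∃ Bad : Finset (∀ i : Fin n, Fin (a i)), Bad.card ≤ B ∧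
        ∀ x : ∀ k, Fin (a k), (fun i : Fin n => x i) ∉ Bad → ∀ m, n ≤ m → ρ g x m = x m) →
      ∀ x, (Set.range fun g => ρ g x).Finite) ∧
    (∀ (A : Type) [Group A], Built A → (∀ g : G, IsOfFinOrder g) →
      ∀ f : G →* A, Finite f.range) := by
  have hG' : ¬ VirtZ G := by
    rcases hG with h | h
    · exact not_virtZ_of_torsion h
    · exact h
  refine ⟨fun X _ hX x => ?_, fun X _ S hS x hx => gap_orbit hG' S hS x hx,
    fun Y ρ h => finite_range_of_linSchreier hG' ρ h,
    fun Y Λ _ _ T C hT hΛ ρ hρ =>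
      finite_range_of_linSchreier hG' ρ (linSchreier_of_full T hT C hΛ ρ hρ),
    fun Y τ ρ hρ => finite_range_of_linSchreier hG' ρ (linSchreier_of_zpow τ ρ hρ),
    fun a ρ hρ x => finite_orbits_of_boundedType hG' ρ hρ x,
    fun A _ hA hper f => hA.torsionBound G hper f⟩
  by_contra h
  exact hG' (virtZ_of_boundedCuts hX h)

end Vale.Agent.Results.P192.SchreierGrowthExclusions
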