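import Vale.Agent.P192.TwoGen

/-!
The finitely presented Burnside question reduces to groups generated by an involution and one
further element.
-/

namespace Vale.Agent.Results.P192.TwoGeneratorReduction

open Vale.Agent.P192

universe u

theorem result :
    ((∃ (G : Type u) (_ : Group G), Group.IsFinitelyPresented G ∧
        (∀ g : G, IsOfFinOrder g) ∧ Infinite G) ↔
      ∃ (S : Type) (_ : Group S), Group.IsFinitelyPresented S ∧
        (∀ s : S, IsOfFinOrder s) ∧ Infinite S ∧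
        ∃ a b : S, a * a = 1 ∧ Subgroup.closure {a, b} = ⊤) ∧
    ((∃ (G : Type u) (_ : Group G), Group.IsFinitelyPresented G ∧
        (∃ e : ℕ, 1 ≤ e ∧ ∀ g : G, g ^ e = 1) ∧ Infinite G) ↔
      ∃ (S : Type) (_ : Group S), Group.IsFinitelyPresented S ∧
        (∃ e : ℕ, 1 ≤ e ∧ ∀ s : S, s ^ e = 1) ∧ Infinite S ∧
        ∃ a b : S, a * a = 1 ∧ Subgroup.closure {a, b} = ⊤) := by
  refine ⟨⟨?_, ?_⟩, ⟨?_, ?_⟩⟩
  · rintro ⟨G, _, hfp, hper, hinf⟩
    obtain ⟨S, i, h1, h2, h3, h4, -⟩ := reduction (G := G) hper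
    exact ⟨S, i, h1, h2, h3, h4⟩
  · rintro ⟨S, _, hfp, hper, hinf, -⟩
    exact ⟨ULift.{u} S, inferInstance,
      Group.IsFinitelyPresented.equiv MulEquiv.ulift.symm,
      fun g => (MulEquiv.ulift : ULift.{u} S ≃* S).symm.toMonoidHom.isOfFinOrder (hper g.down),
      Infinite.of_injective _ MulEquiv.ulift.symm.injective⟩
  · rintro ⟨G, _, hfp, ⟨e, he, hexp⟩, hinf⟩
    have hper : Periodic G := fun g => isOfFinOrder_iff_pow_eq_one.2 ⟨e, he, hexp g⟩
    obtain ⟨S, i, h1, -, h3, h4, h5⟩ := reduction (G := G) hper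
    exact ⟨S, i, h1, h5 e he hexp, h3, h4⟩
  · rintro ⟨S, _, hfp, ⟨e, he, hexp⟩, hinf, -⟩
    exact ⟨ULift.{u} S, inferInstance,
      Group.IsFinitelyPresented.equiv MulEquiv.ulift.symm,
      ⟨e, he, fun g => ULift.ext _ _ (by simpa using hexp g.down)⟩,
      Infinite.of_injective _ MulEquiv.ulift.symm.injective⟩

end Vale.Agent.Results.P192.TwoGeneratorReduction
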